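import Vale.Agent.P365.T2.H417.Bri
import Vale.Agent.P365.T2.UpsBd844
import Vale.Agent.P365.T2.Gen963

/-!
# P365-T2: derivative of the averaged entropy along a path of profiles

The main part is literally the right-hand side of helper320's `drift_avg`; the law error is
helper963's `ErrF` of `Σ_x Σ_k rho_k pi_x G(u_{x,k})` (without the minus sign, as in helper678's
one-site output).
-/

set_option linter.all false

namespace Vale.Agent.P365.T2.H417

open P365L P365O P365T1 P365L.TL Matrix Complex MeasureTheory Filter Topology Set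
open Vale.Agent.P365.J376
open P365T2.H844 (tt pr ur TT LLU Ups Gf)
open P365T2.H37 (wk rho)
open P365H878 (DV DE HV LL Om)
open P365L.T2.Path
open scoped ComplexConjugate RealInnerProductSpace

variable {ι : Type*} [DecidableEq ι] [Fintype ι] {A : Matrix ι ι ℝ}
  {Λ : Type*} [Fintype Λ] {p : Λ → ℝ} {ν : Λ → Measure ℝ} {E : ℝ}
  {F : Type*} [NormedAddCommGroup F] [InnerProductSpace ℝ F] (Φ : ι → F)

/-- the functional `Σ_x Σ_k rho_k pi_x G(u_{x,k})` -/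
noncomputable def Sig (A : Matrix ι ι ℝ) (ε : ℝ) (J : ℕ) (W : ι → ℂ) : ℝ :=
  ∑ x, ∑ k ∈ Finset.range (J + 2), rho k * pr (TT A W) x * Gf ε (ur Φ (TT A W) J k x)

theorem contDiffOn_Sig (hA : A.IsSymm) {n : WithTop ℕ∞} (J : ℕ) {ε : ℝ} (hε : 0 < ε) :
    ContDiffOn ℝ n (Sig Φ A ε J) (LH ι) :=
  ContDiffOn.sum fun x _ => ContDiffOn.sum fun k _ => contDiffOn_ups_term hA J k x hε

theorem LL_Sig (hA : A.IsSymm) {ε : ℝ} (hε : 0 < ε) (J : ℕ) (y : ι) {W : ι → ℂ} (hW : W ∈ Om ι) :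
    LL A (Sig Φ A ε J) y W = ∑ x, ∑ k ∈ Finset.range (J + 2), LLU Φ A W ε J k y x :=
  LL_Ups Φ hA hε J y hW

/-- **derivative of the averaged entropy** -/
theorem hasDerivAt_AvG_Sig (hA : A.IsSymm) {ε : ℝ} (hε : 0 < ε) (J : ℕ)
    [∀ k, IsProbabilityMeasure (ν k)] {R : ℝ} (hR : ∀ k, ν k (Icc (-R) R)ᶜ = 0)
    {u w : (ι → Λ) → ι → ℝ} (hu : ∀ l x, 0 < u l x) (hw : ∀ l x, 0 ≤ w l x)
    {r rd : Λ → ℝ → ℝ} (hsm : ∀ l x, w l x ≠ 0 → SmLaw (ν (l x)) (r (l x)) (rd (l x))) (τ : ℝ) :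
    HasDerivAt (fun τ => AvG p ν E (eT u w τ) fun _ => Sig Φ A ε J)
      ((∑ l : ι → Λ, (∏ x, p (l x)) * ∑ y, omT u w τ l y *
        Ex (fun x => ν (l x)) E (eT u w τ l) (fun W => ∑ x, ∑ k ∈ Finset.range (J + 2),
          LLU Φ A W ε J k y x)) +
      ∑ l : ι → Λ, (∏ x, p (l x)) * ∑ y, omT u w τ l y *
        ErrF A (fun x => ν (l x)) E (eT u w τ l) (rd (l y)) (Sig Φ A ε J) y) τ := by
  have h := master (p := p) (ν := ν) (E := E) hA
    (F := fun _ => Sig Φ A ε J) (fun _ => contDiffOn_Sig Φ hA J hε) hR hu hw hsm τ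
  refine h.congr_deriv ?_
  rw [← Finset.sum_add_distrib]
  refine Finset.sum_congr rfl fun l _ => ?_
  rw [← mul_add, ← Finset.sum_add_distrib]
  congr 1
  refine Finset.sum_congr rfl fun y _ => ?_
  rw [mul_add]
  congr 2
  unfold Ex
  refine integral_congr_ae (Eventually.of_forall fun v => ?_)
  refine LL_Sig Φ hA hε J y ?_
  refine WV_mem_LH (fun x => ?_) v
  have h1 := mul_nonneg (Real.exp_pos (-τ)).le (hw l x)
  unfold eT
  linarith [hu l x]

/-- **derivative of the averaged `Ups`** (helper844's sign) -/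
theorem hasDerivAt_AvG_Ups (hA : A.IsSymm) {ε : ℝ} (hε : 0 < ε) (J : ℕ)
    [∀ k, IsProbabilityMeasure (ν k)] {R : ℝ} (hR : ∀ k, ν k (Icc (-R) R)ᶜ = 0)
    {u w : (ι → Λ) → ι → ℝ} (hu : ∀ l x, 0 < u l x) (hw : ∀ l x, 0 ≤ w l x)
    {r rd : Λ → ℝ → ℝ} (hsm : ∀ l x, w l x ≠ 0 → SmLaw (ν (l x)) (r (l x)) (rd (l x))) (τ : ℝ) :
    HasDerivAt (fun τ => AvG p ν E (eT u w τ) fun _ W => Ups Φ A W ε J)
      (-(∑ l : ι → Λ, (∏ x, p (l x)) * ∑ y, omT u w τ l y *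
        Ex (fun x => ν (l x)) E (eT u w τ l) (fun W => ∑ x, ∑ k ∈ Finset.range (J + 2),
          LLU Φ A W ε J k y x)) -
      ∑ l : ι → Λ, (∏ x, p (l x)) * ∑ y, omT u w τ l y *
        ErrF A (fun x => ν (l x)) E (eT u w τ l) (rd (l y)) (Sig Φ A ε J) y) τ := by
  have h := (hasDerivAt_AvG_Sig (p := p) (ν := ν) (E := E) Φ hA hε J hR hu hw hsm τ).neg
  have e : (fun τ => AvG p ν E (eT u w τ) fun _ W => Ups Φ A W ε J) =
      -fun τ => AvG p ν E (eT u w τ) fun _ => Sig Φ A ε J := by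
    funext τ
    simp only [Pi.neg_apply]
    unfold AvG
    rw [← Finset.sum_neg_distrib]
    refine Finset.sum_congr rfl fun l _ => ?_
    rw [← mul_neg]
    congr 1
    unfold Ex
    rw [← integral_neg]
    rfl
  rw [e]
  refine h.congr_deriv ?_
  ring

end Vale.Agent.P365.T2.H417
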