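import Vale.Agent.P365.T2.H417.GenLL

/-!
# P365-T2: the flux of the one-body entropy, split into multiplier part and mass part

Explicit right-hand sides (helper775's `th1 + th2` after `unfold`).
-/

set_option linter.all false

namespace Vale.Agent.P365.T2.H417

open P365L P365O P365T1 Matrix Complex MeasureTheory Filter Topology Set
open Vale.Agent.P365.T2.H789
open P365T2.H844 P365T2.H37
open P365H878 (DV DE HV LL Om)
open scoped ComplexConjugate RealInnerProductSpace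

variable {ι : Type*} [DecidableEq ι] [Fintype ι] {A : Matrix ι ι ℝ}
  {E : Type*} [NormedAddCommGroup E] [InnerProductSpace ℝ E] (Φ : ι → E)

/-- one summand -/
theorem tU_split (W : ι → ℂ) (ε : ℝ) (J k : ℕ) (y x : ι) :
    tU Φ A W ε J k y x =
      Gf1 ε (ur Φ (TT A W) J k x) * (∑ b, wk J k (tt Φ x b) * tT A W y x b) +
      rho k * (Gf ε (ur Φ (TT A W) J k x) -
        ur Φ (TT A W) J k x * Gf1 ε (ur Φ (TT A W) J k x)) * ∑ b, tT A W y x b := by
  have hr := (rho_pos k).ne'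
  have e : ∑ b, wk J k (tt Φ x b) / rho k * tT A W y x b =
      (∑ b, wk J k (tt Φ x b) * tT A W y x b) / rho k := by
    rw [Finset.sum_div]
    exact Finset.sum_congr rfl fun b _ => by ring
  unfold tU
  rw [e]
  field_simp

/-- `775.sum_tU` -/
theorem sum_tU_split (W : ι → ℂ) (ε : ℝ) (J : ℕ) (y : ι) :
    ∑ x, ∑ k ∈ Finset.range (J + 2), tU Φ A W ε J k y x =
      (∑ x, ∑ k ∈ Finset.range (J + 2),
        Gf1 ε (ur Φ (TT A W) J k x) * ∑ b, wk J k (tt Φ x b) * tT A W y x b) +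
      ∑ x, ∑ k ∈ Finset.range (J + 2), rho k * (Gf ε (ur Φ (TT A W) J k x) -
        ur Φ (TT A W) J k x * Gf1 ε (ur Φ (TT A W) J k x)) * ∑ b, tT A W y x b := by
  rw [← Finset.sum_add_distrib]
  refine Finset.sum_congr rfl fun x _ => ?_
  rw [← Finset.sum_add_distrib]
  exact Finset.sum_congr rfl fun k _ => tU_split Φ W ε J k y x

/-- the flux of one summand -/
theorem HV_ups (hA : A.IsSymm) {ε : ℝ} (hε : 0 < ε) (J k : ℕ) (y x : ι) {W : ι → ℂ}
    (hW : W ∈ Om ι) :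
    HV A (fun W => rho k * pr (TT A W) x * Gf ε (ur Φ (TT A W) J k x)) y W =
      -(W y).im * tU Φ A W ε J k y x :=
  HV_of_gen hA (gen_ups Φ hA hε J k y x)
    (P365L.T2.Path.contDiffOn_ups_term (n := 1) hA J k x hε) one_ne_zero hW

/-- the flux of the whole entropy, `tU` form -/
theorem HV_Ups (hA : A.IsSymm) {ε : ℝ} (hε : 0 < ε) (J : ℕ) (y : ι) {W : ι → ℂ}
    (hW : W ∈ Om ι) :
    HV A (fun W => ∑ x, ∑ k ∈ Finset.range (J + 2),
        rho k * pr (TT A W) x * Gf ε (ur Φ (TT A W) J k x)) y W =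
      -(W y).im * ∑ x, ∑ k ∈ Finset.range (J + 2), tU Φ A W ε J k y x :=
  HV_of_gen hA (gen_Ups Φ hA hε J y)
    (ContDiffOn.sum fun x _ => ContDiffOn.sum fun k _ =>
      P365L.T2.Path.contDiffOn_ups_term (n := 1) hA J k x hε) one_ne_zero hW

/-- **the flux of the whole entropy**, `th1 + th2` form (helper775) -/
theorem HV_Ups_split (hA : A.IsSymm) {ε : ℝ} (hε : 0 < ε) (J : ℕ) (y : ι) {W : ι → ℂ}
    (hW : W ∈ Om ι) :
    HV A (fun W => ∑ x, ∑ k ∈ Finset.range (J + 2),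
        rho k * pr (TT A W) x * Gf ε (ur Φ (TT A W) J k x)) y W =
      -(W y).im * ((∑ x, ∑ k ∈ Finset.range (J + 2),
          Gf1 ε (ur Φ (TT A W) J k x) * ∑ b, wk J k (tt Φ x b) * tT A W y x b) +
        ∑ x, ∑ k ∈ Finset.range (J + 2), rho k * (Gf ε (ur Φ (TT A W) J k x) -
          ur Φ (TT A W) J k x * Gf1 ε (ur Φ (TT A W) J k x)) * ∑ b, tT A W y x b) := by
  rw [HV_Ups Φ hA hε J y hW, sum_tU_split]

/-- with the sign of helper844's `Ups` -/
theorem HV_negUps_split (hA : A.IsSymm) {ε : ℝ} (hε : 0 < ε) (J : ℕ) (y : ι) {W : ι → ℂ}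
    (hW : W ∈ Om ι) :
    HV A (fun W => -∑ x, ∑ k ∈ Finset.range (J + 2),
        rho k * pr (TT A W) x * Gf ε (ur Φ (TT A W) J k x)) y W =
      -(-(W y).im * ((∑ x, ∑ k ∈ Finset.range (J + 2),
          Gf1 ε (ur Φ (TT A W) J k x) * ∑ b, wk J k (tt Φ x b) * tT A W y x b) +
        ∑ x, ∑ k ∈ Finset.range (J + 2), rho k * (Gf ε (ur Φ (TT A W) J k x) -
          ur Φ (TT A W) J k x * Gf1 ε (ur Φ (TT A W) J k x)) * ∑ b, tT A W y x b)) := by
  have h := HV_of_gen hA (gen_negUps Φ hA hε J y)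
    (P365L.T2.Path.contDiffOn_Ups (n := 1) hA J hε) one_ne_zero hW
  rw [h, sum_tU_split]
  ring

/-- the flux of a row form `Σ_b c_b T_xb` -/
theorem HV_row (hA : A.IsSymm) (y x : ι) (c : ι → ℝ) {W : ι → ℂ} (hW : W ∈ Om ι) :
    HV A (fun W => ∑ b, c b * TT A W x b) y W = -(W y).im * ∑ b, c b * tT A W y x b :=
  HV_of_gen hA (gen_row hA y x c)
    (ContDiffOn.sum fun b _ => contDiffOn_const.mul (P365L.T2.Path.contDiffOn_TT (n := 1) hA x b))
    one_ne_zero hW

/-- the flux of a row sum -/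
theorem HV_pr (hA : A.IsSymm) (y x : ι) {W : ι → ℂ} (hW : W ∈ Om ι) :
    HV A (fun W => pr (TT A W) x) y W = -(W y).im * ∑ b, tT A W y x b :=
  HV_of_gen hA (gen_pr hA y x) (P365L.T2.Path.contDiffOn_pr (n := 1) hA x) one_ne_zero hW

end Vale.Agent.P365.T2.H417
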