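import Vale.Agent.P365.T2.H789.Gen
import Vale.Agent.P365.T2.UpsGen844

/-!
# P365-T2: closed forms of the one-site generator

`HasGen` (helper789) of `K_ab`, of `T_ab = e_a e_b K_ab`, of linear forms in `T`, of the row sums
`pr (TT A W) x`, and of the summand `rho_k pi_x G(u_{x,k})` of the one-body entropy, whose
generator is literally helper844's `LLU`.
-/

set_option linter.all false

namespace Vale.Agent.P365.T2.H417

open P365L P365O P365T1 Matrix Complex MeasureTheory Filter Topology Set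
open Vale.Agent.P365.T2.H789
open P365T2.H844 P365T2.H37
open scoped ComplexConjugate RealInnerProductSpace

variable {ι : Type*} [DecidableEq ι] [Fintype ι] {A : Matrix ι ι ℝ}

/-! ### entries of the kernel matrix -/

theorem gen_KK (hA : A.IsSymm) (z a b : ι) :
    HasGen A z (fun W => KK A W a b)
      (fun W => -(conj (Gr A W a b) * (Gr A W a z * Gr A W z b)).re / mm A W z)
      (fun W => -2 * (conj (Gr A W a b) * (Gr A W a z * Gr A W z b)).im)
      (fun W => (-(W z).im) * (KK A W a z * KK A W z b) / mm A W z) := by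
  refine (HasGen.normSq hA (HasGen.gr hA z a b)).congr (fun W hW => rfl) (fun W hW => ?_)
    (fun W hW => ?_) fun W hW => ?_
  · have hm := (mm_pos hA hW z).ne'
    have e : conj (Gr A W a b) * (-(Gr A W a z * Gr A W z b) / (2 * (mm A W z : ℂ))) =
        (((2 * mm A W z)⁻¹ : ℝ) : ℂ) * -(conj (Gr A W a b) * (Gr A W a z * Gr A W z b)) := by
      push_cast
      rw [div_eq_mul_inv, mul_inv]
      ring
    rw [e, Complex.re_ofReal_mul, Complex.neg_re]
    field_simp
  · have e : conj (Gr A W a b) * (I * (Gr A W a z * Gr A W z b)) =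
        I * (conj (Gr A W a b) * (Gr A W a z * Gr A W z b)) := by ring
    rw [e, Complex.I_mul_re]
    ring
  · have hm := (mm_pos hA hW z).ne'
    have e : ‖-(Gr A W a z * Gr A W z b) / (2 * (mm A W z : ℂ))‖ ^ 2 =
        KK A W a z * KK A W z b / (4 * mm A W z ^ 2) := by
      rw [norm_div, norm_neg, norm_mul, norm_mul, Complex.norm_real, Complex.norm_ofNat,
        Real.norm_eq_abs, div_pow, mul_pow, mul_pow, sq_abs]
      unfold KK
      norm_num
    rw [e, mul_zero, Complex.zero_re]
    field_simp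
    ring

/-- the absorption of any site -/
theorem gen_ab (A : Matrix ι ι ℝ) (z x : ι) :
    HasGen A z (fun W => -(W x).im) (fun _ => 0) (fun _ => if x = z then (1 : ℝ) else 0)
      (fun W => -((if x = z then (1 : ℝ) else 0) * -(W x).im)) := by
  by_cases h : x = z
  · subst h
    exact (HasGen.ab_self A x).congr (fun _ _ => rfl) (fun _ _ => rfl)
      (fun _ _ => by rw [if_pos rfl]) fun _ _ => by rw [if_pos rfl, one_mul]
  · exact (HasGen.ab_ne A h).congr (fun _ _ => rfl) (fun _ _ => rfl)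
      (fun _ _ => by rw [if_neg h]) fun _ _ => by rw [if_neg h]; simp

/-- angular derivative of `T_ab` at `z` -/
noncomputable def tT (A : Matrix ι ι ℝ) (W : ι → ℂ) (z a b : ι) : ℝ :=
  (-(W a).im) * (-(W b).im) * (-(conj (Gr A W a b) * (Gr A W a z * Gr A W z b)).re / mm A W z)

/-- absorption derivative of `T_ab` at `z` -/
noncomputable def dT (A : Matrix ι ι ℝ) (W : ι → ℂ) (z a b : ι) : ℝ :=
  (-(W a).im) * (-(W b).im) * (-2 * (conj (Gr A W a b) * (Gr A W a z * Gr A W z b)).im) +
    ((if a = z then (1 : ℝ) else 0) * -(W b).im + (if b = z then (1 : ℝ) else 0) * -(W a).im) *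
      KK A W a b

/-- generator of `T_ab` at `z` -/
noncomputable def lT (A : Matrix ι ι ℝ) (W : ι → ℂ) (z a b : ι) : ℝ :=
  TT A W a z * (TT A W z b / pr (TT A W) z) -
    ((if a = z then (1 : ℝ) else 0) + (if b = z then (1 : ℝ) else 0)) * TT A W a b

theorem gen_TT (hA : A.IsSymm) (z a b : ι) :
    HasGen A z (fun W => TT A W a b) (fun W => tT A W z a b) (fun W => dT A W z a b)
      (fun W => lT A W z a b) := by
  refine (HasGen.mul hA (HasGen.mul hA (gen_ab A z a) (gen_ab A z b)) (gen_KK hA z a b)).congr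
    (fun W hW => rfl) (fun W hW => ?_) (fun W hW => ?_) fun W hW => ?_
  · unfold tT
    ring
  · unfold dT
    ring
  · unfold lT
    rw [pr_TT hA hW]
    unfold TT
    have hm := (mm_pos hA hW z).ne'
    have he : (-(W z).im) ≠ 0 := (neg_pos.2 (hW z)).ne'
    field_simp
    ring

/-- linear forms in one row of `T` -/
theorem gen_row (hA : A.IsSymm) (z x : ι) (c : ι → ℝ) :
    HasGen A z (fun W => ∑ b, c b * TT A W x b) (fun W => ∑ b, c b * tT A W z x b)
      (fun W => ∑ b, c b * dT A W z x b) (fun W => ∑ b, c b * lT A W z x b) := by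
  refine HasGen.sum Finset.univ fun b _ => ?_
  exact (HasGen.smul (c b) (gen_TT hA z x b)).congr (fun _ _ => by simp) (fun _ _ => by simp)
    (fun _ _ => by simp) fun _ _ => by simp

theorem sum_lT (hA : A.IsSymm) {W : ι → ℂ} (hW : ∀ x, (W x).im < 0) (z x : ι) (c : ι → ℝ) :
    ∑ b, c b * lT A W z x b = TT A W x z * ((∑ b, TT A W z b / pr (TT A W) z * c b) - c z) -
      (if x = z then (1 : ℝ) else 0) * ∑ b, c b * TT A W x b := by
  unfold lT
  have e1 : ∀ b, c b * (TT A W x z * (TT A W z b / pr (TT A W) z) -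
      ((if x = z then (1 : ℝ) else 0) + (if b = z then (1 : ℝ) else 0)) * TT A W x b) =
      TT A W x z * (TT A W z b / pr (TT A W) z * c b) -
        (if x = z then (1 : ℝ) else 0) * (c b * TT A W x b) -
        (if b = z then c b * TT A W x b else 0) := by
    intro b
    by_cases h : b = z
    · simp only [if_pos h]
      ring
    · simp only [if_neg h]
      ring
  rw [Finset.sum_congr rfl fun b _ => e1 b, Finset.sum_sub_distrib, Finset.sum_sub_distrib,
    ← Finset.mul_sum, ← Finset.mul_sum, Finset.sum_ite_eq' Finset.univ z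
      (fun b => c b * TT A W x b), if_pos (Finset.mem_univ z)]
  ring

/-- **the row sums** -/
theorem gen_pr (hA : A.IsSymm) (z x : ι) :
    HasGen A z (fun W => pr (TT A W) x) (fun W => ∑ b, tT A W z x b)
      (fun W => ∑ b, dT A W z x b)
      (fun W => -((if x = z then (1 : ℝ) else 0) * pr (TT A W) x)) := by
  refine (gen_row hA z x fun _ => 1).congr (fun W hW => ?_) (fun W hW => ?_) (fun W hW => ?_)
    fun W hW => ?_
  · simp [P365T2.H844.pr]
  · simp
  · simp
  · rw [sum_lT hA hW]
    simp only [mul_one, one_mul]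
    rw [sum_P z (pr_TT_pos hA hW z), sub_self, mul_zero, zero_sub]
    rfl

/-! ### the summand of the one-body entropy -/

section Ups

variable {E : Type*} [NormedAddCommGroup E] [InnerProductSpace ℝ E] (Φ : ι → E)

theorem hasDerivAt_Gf {ε u : ℝ} (h : 0 < u + ε) : HasDerivAt (Gf ε) (Gf1 ε u) u := by
  have h1 : HasDerivAt (fun u : ℝ => u + ε) 1 u := (hasDerivAt_id u).add_const ε
  have h2 := (hasDerivAt_id u).fun_mul (h1.log h.ne')
  refine h2.congr_deriv ?_
  unfold Gf1
  simp only [id]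
  ring

theorem hasDerivAt_Gf1 {ε u : ℝ} (h : 0 < u + ε) : HasDerivAt (Gf1 ε) (Gf2 ε u) u := by
  have h1 : HasDerivAt (fun u : ℝ => u + ε) 1 u := (hasDerivAt_id u).add_const ε
  have h2 := (h1.log h.ne').fun_add ((hasDerivAt_id u).fun_div h1 h.ne')
  refine h2.congr_deriv ?_
  unfold Gf2
  simp only [id]
  have := h.ne'
  field_simp
  ring

theorem continuousOn_Gf2 {ε : ℝ} : ContinuousOn (Gf2 ε) {u | 0 < u + ε} := by
  unfold Gf2
  have h : ContinuousOn (fun u : ℝ => u + ε) {u | 0 < u + ε} :=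
    (continuous_id.add continuous_const).continuousOn
  have h0 : ∀ u ∈ {u : ℝ | 0 < u + ε}, u + ε ≠ 0 := fun u hu => (ne_of_gt hu)
  exact (continuousOn_const.div h h0).add
    (continuousOn_const.div (h.pow 2) fun u hu => pow_ne_zero 2 (h0 u hu))

/-- the numerator: `(1/rho_k) Σ_b w_k(x,b) T_xb` -/
noncomputable def NN (A : Matrix ι ι ℝ) (W : ι → ℂ) (J k : ℕ) (x : ι) : ℝ :=
  ∑ b, (wk J k (tt Φ x b) / rho k) * TT A W x b

theorem ur_eq {W : ι → ℂ} (J k : ℕ) (x : ι) :
    ur Φ (TT A W) J k x = NN Φ A W J k x / pr (TT A W) x := by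
  unfold ur Pw NN
  rw [Finset.sum_div, Finset.sum_div]
  refine Finset.sum_congr rfl fun b _ => ?_
  rw [div_mul_eq_mul_div, div_mul_eq_mul_div, div_right_comm, mul_comm (TT A W x b)]

/-- absorption derivative of the summand -/
noncomputable def dU (A : Matrix ι ι ℝ) (W : ι → ℂ) (ε : ℝ) (J k : ℕ) (z x : ι) : ℝ :=
  rho k * (Gf1 ε (ur Φ (TT A W) J k x) * (∑ b, (wk J k (tt Φ x b) / rho k) * dT A W z x b) +
    (Gf ε (ur Φ (TT A W) J k x) -
      ur Φ (TT A W) J k x * Gf1 ε (ur Φ (TT A W) J k x)) * ∑ b, dT A W z x b)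

/-- angular derivative of the summand -/
noncomputable def tU (A : Matrix ι ι ℝ) (W : ι → ℂ) (ε : ℝ) (J k : ℕ) (z x : ι) : ℝ :=
  rho k * (Gf1 ε (ur Φ (TT A W) J k x) * (∑ b, (wk J k (tt Φ x b) / rho k) * tT A W z x b) +
    (Gf ε (ur Φ (TT A W) J k x) -
      ur Φ (TT A W) J k x * Gf1 ε (ur Φ (TT A W) J k x)) * ∑ b, tT A W z x b)

theorem dthu_eq (hA : A.IsSymm) {W : ι → ℂ} (hW : ∀ x, (W x).im < 0) (J k : ℕ) (z x : ι) :
    (∑ b, (wk J k (tt Φ x b) / rho k) * tT A W z x b) -
        ur Φ (TT A W) J k x * ∑ b, tT A W z x b =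
      pr (TT A W) x * dthu Φ A W J k z x := by
  have hm := (mm_pos hA hW z).ne'
  have hp := (pr_TT_pos hA hW x).ne'
  have hr := (rho_pos k).ne'
  unfold dthu tT
  rw [Finset.mul_sum, ← Finset.sum_sub_distrib]
  have e1 : (Gr A W x z * ∑ b, (((-(W b).im) * (wk J k (tt Φ x b) -
      rho k * ur Φ (TT A W) J k x) : ℝ) : ℂ) * (conj (Gr A W x b) * Gr A W z b)).re =
      ∑ b, ((-(W b).im) * (wk J k (tt Φ x b) - rho k * ur Φ (TT A W) J k x)) *
        (conj (Gr A W x b) * (Gr A W x z * Gr A W z b)).re := by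
    rw [Finset.mul_sum, Complex.re_sum]
    refine Finset.sum_congr rfl fun b _ => ?_
    rw [← Complex.re_ofReal_mul]
    congr 1
    ring
  rw [e1, ← neg_mul, mul_left_comm, ← mul_assoc, Finset.mul_sum]
  refine Finset.sum_congr rfl fun b _ => ?_
  field_simp
  ring

theorem tT_self (hA : A.IsSymm) {W : ι → ℂ} (z b : ι) :
    tT A W z z b = -((Gr A W z z).re / mm A W z) * TT A W z b := by
  unfold tT TT KK
  have e : conj (Gr A W z b) * (Gr A W z z * Gr A W z b) =
      ((‖Gr A W z b‖ ^ 2 : ℝ) : ℂ) * Gr A W z z := by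
    rw [← Complex.normSq_eq_norm_sq, Complex.normSq_eq_conj_mul_self]
    ring
  rw [e, Complex.re_ofReal_mul]
  ring

/-- **the generator of the summand of the one-body entropy is `LLU`** -/
theorem gen_ups (hA : A.IsSymm) {ε : ℝ} (hε : 0 < ε) (J k : ℕ) (z x : ι) :
    HasGen A z (fun W => rho k * pr (TT A W) x * Gf ε (ur Φ (TT A W) J k x))
      (fun W => tU Φ A W ε J k z x) (fun W => dU Φ A W ε J k z x)
      (fun W => LLU Φ A W ε J k z x) := by
  have hpos : ∀ W ∈ Hm ι, 0 < pr (TT A W) x := fun W hW => pr_TT_pos hA hW x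
  have hu0 : ∀ W ∈ Hm ι, 0 < NN Φ A W J k x / pr (TT A W) x + ε := by
    intro W hW
    rw [← ur_eq]
    have := ur_nonneg (Φ := Φ) (J := J) (k := k) (TT_nonneg hW) (fun x => pr_TT_pos hA hW x) x
    linarith
  have hN : HasGen A z (fun W => NN Φ A W J k x)
      (fun W => ∑ b, (wk J k (tt Φ x b) / rho k) * tT A W z x b)
      (fun W => ∑ b, (wk J k (tt Φ x b) / rho k) * dT A W z x b)
      (fun W => ∑ b, (wk J k (tt Φ x b) / rho k) * lT A W z x b) :=
    gen_row hA z x fun b => wk J k (tt Φ x b) / rho k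
  have hM := gen_pr hA z x
  have c2 : ContinuousOn (fun W => Gf2 ε (NN Φ A W J k x / pr (TT A W) x)) (Hm ι) :=
    continuousOn_Gf2.comp (hN.cp.div hM.cp fun W hW => (hpos W hW).ne') fun W hW => hu0 W hW
  have h1 := HasGen.persp hA hN hM hpos (φ := Gf ε) (φ1 := Gf1 ε) (φ2 := Gf2 ε)
    (fun W hW => hasDerivAt_Gf (hu0 W hW)) (fun W hW => hasDerivAt_Gf1 (hu0 W hW)) c2
  refine (HasGen.smul (rho k) h1).congr (fun W hW => ?_) (fun W hW => ?_) (fun W hW => ?_)
    fun W hW => ?_
  · rw [smul_eq_mul, ur_eq, mul_assoc]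
  · rw [smul_eq_mul, ← ur_eq]
    rfl
  · rw [smul_eq_mul, ← ur_eq]
    rfl
  · rw [smul_eq_mul, ← ur_eq, sum_lT hA hW, dthu_eq Φ hA hW]
    have hp := (hpos W hW).ne'
    have hpz := (pr_TT_pos hA hW z).ne'
    have hr := (rho_pos k).ne'
    have hN2 : ∑ b, wk J k (tt Φ x b) / rho k * TT A W x b =
        ur Φ (TT A W) J k x * pr (TT A W) x := by
      rw [ur_eq]
      unfold NN
      field_simp
    unfold LLU
    by_cases h : x = z
    · subst h
      have e0 : dthu Φ A W J k x x = 0 := by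
        have e1 := dthu_eq Φ hA hW J k x x
        simp only [tT_self hA] at e1
        have e2 : ∑ b, wk J k (tt Φ x b) / rho k * (-((Gr A W x x).re / mm A W x) * TT A W x b) =
            -((Gr A W x x).re / mm A W x) * (ur Φ (TT A W) J k x * pr (TT A W) x) := by
          rw [← hN2, Finset.mul_sum]
          exact Finset.sum_congr rfl fun b _ => by ring
        have e3 : ∑ b, -((Gr A W x x).re / mm A W x) * TT A W x b =
            -((Gr A W x x).re / mm A W x) * pr (TT A W) x := by
          rw [← Finset.mul_sum]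
          rfl
        rw [e2, e3] at e1
        have e4 : pr (TT A W) x * dthu Φ A W J k x x = 0 := by
          rw [← e1]; ring
        exact (mul_eq_zero.1 e4).resolve_left hp
      have e5 : ∑ b, TT A W x b / pr (TT A W) x * (wk J k (tt Φ x b) / rho k) =
          ur Φ (TT A W) J k x := by
        unfold ur Pw
        rw [Finset.sum_div]
        exact Finset.sum_congr rfl fun b _ => by ring
      rw [if_pos rfl, if_pos rfl, e0, hN2, e5, tt_self, wk_zero_arg]
      field_simp
      ring
    · have e5 : ∑ b, TT A W z b / pr (TT A W) z * (wk J k (tt Φ x b) / rho k) =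
          Pw Φ (TT A W) J k z x / rho k := by
        unfold Pw
        rw [Finset.sum_div]
        exact Finset.sum_congr rfl fun b _ => by ring
      rw [if_neg h, if_neg h, e5, pr_TT hA hW z]
      field_simp
      ring

/-- the whole entropy -/
theorem gen_Ups (hA : A.IsSymm) {ε : ℝ} (hε : 0 < ε) (J : ℕ) (z : ι) :
    HasGen A z
      (fun W => ∑ x, ∑ k ∈ Finset.range (J + 2),
        rho k * pr (TT A W) x * Gf ε (ur Φ (TT A W) J k x))
      (fun W => ∑ x, ∑ k ∈ Finset.range (J + 2), tU Φ A W ε J k z x)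
      (fun W => ∑ x, ∑ k ∈ Finset.range (J + 2), dU Φ A W ε J k z x)
      (fun W => ∑ x, ∑ k ∈ Finset.range (J + 2), LLU Φ A W ε J k z x) :=
  HasGen.sum _ fun x _ => HasGen.sum _ fun k _ => gen_ups Φ hA hε J k z x

end Ups

end Vale.Agent.P365.T2.H417
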