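import Vale.Agent.P365.T2.H417.GenInst
import Vale.Agent.P365.T2.H963.ContUps
import Vale.Agent.P365.T2.H878.LL

/-!
# P365-T2: `HasGen` (helper789) gives the `fderiv` generator `LL` of helper878 / helper292

`LL_of_gen`, and with `gen_ups`: `LL_ups`, `LL_Ups` : the generator of the (summand of the)
one-body entropy is helper844's `LLU`.
-/

set_option linter.all false

namespace Vale.Agent.P365.T2.H417

open P365L P365O P365T1 Matrix Complex MeasureTheory Filter Topology Set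
open Vale.Agent.P365.T2.H789
open P365T2.H844 P365T2.H37
open P365H878 (DV DE HV LL Om)
open scoped ComplexConjugate RealInnerProductSpace

variable {ι : Type*} [DecidableEq ι] [Fintype ι] {A : Matrix ι ι ℝ}
  {Ψ th de ll : (ι → ℂ) → ℝ} {z : ι}

theorem hasDerivAt_rez_fderiv {F : (ι → ℂ) → ℝ} {W : ι → ℂ} (hF : DifferentiableAt ℝ F W)
    (z : ι) : HasDerivAt (fun u : ℝ => F (rez W z u)) (fderiv ℝ F W (Pi.single z 1)) (W z).re := by
  have hd : HasDerivAt (fun u : ℝ => rez W z u) (Pi.single z (1 : ℂ)) (W z).re := by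
    rw [hasDerivAt_pi]
    intro x
    by_cases hx : x = z
    · subst hx
      simp only [rez_at, Pi.single_eq_same]
      exact (Complex.ofRealCLM.hasDerivAt (x := (W x).re)).add_const _
    · simp only [rez_of_ne W hx, Pi.single_eq_of_ne hx]
      exact hasDerivAt_const _ _
  have h1 : HasFDerivAt F (fderiv ℝ F W) (rez W z (W z).re) := by
    rw [rez_self]
    exact hF.hasFDerivAt
  exact h1.comp_hasDerivAt (W z).re hd

theorem hasDerivAt_imz_fderiv {F : (ι → ℂ) → ℝ} {W : ι → ℂ} (hF : DifferentiableAt ℝ F W)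
    (z : ι) :
    HasDerivAt (fun t : ℝ => F (imz W z t)) (fderiv ℝ F W (Pi.single z (-I))) (-(W z).im) := by
  have hd : HasDerivAt (fun t : ℝ => imz W z t) (Pi.single z (-I)) (-(W z).im) := by
    rw [hasDerivAt_pi]
    intro x
    by_cases hx : x = z
    · subst hx
      simp only [imz_at, Pi.single_eq_same]
      have h1 := ((Complex.ofRealCLM.hasDerivAt (x := -(W x).im)).mul_const I).const_sub
        ((W x).re : ℂ)
      refine h1.congr_deriv ?_
      simp
    · simp only [imz_of_ne W hx, Pi.single_eq_of_ne hx]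
      exact hasDerivAt_const _ _
  have h1 : HasFDerivAt F (fderiv ℝ F W) (imz W z (-(W z).im)) := by
    rw [imz_self]
    exact hF.hasFDerivAt
  exact h1.comp_hasDerivAt (-(W z).im) hd

theorem DV_of_gen (h : HasGen A z Ψ th de ll) {n : WithTop ℕ∞} (hΨ : ContDiffOn ℝ n Ψ (Om ι))
    (hn : n ≠ 0) {W : ι → ℂ} (hW : W ∈ Om ι) : DV Ψ z W = 2 * mm A W z * th W := by
  have h1 := hasDerivAt_rez_fderiv (P365H878.diffAt hΨ hn hW) z
  exact h1.unique (h.hv W hW)

theorem DE_of_gen (h : HasGen A z Ψ th de ll) {n : WithTop ℕ∞} (hΨ : ContDiffOn ℝ n Ψ (Om ι))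
    (hn : n ≠ 0) {W : ι → ℂ} (hW : W ∈ Om ι) : DE Ψ z W = de W := by
  have h1 := hasDerivAt_imz_fderiv (P365H878.diffAt hΨ hn hW) z
  exact h1.unique (h.he W hW)

theorem HV_of_gen (hA : A.IsSymm) (h : HasGen A z Ψ th de ll) {n : WithTop ℕ∞}
    (hΨ : ContDiffOn ℝ n Ψ (Om ι)) (hn : n ≠ 0) {W : ι → ℂ} (hW : W ∈ Om ι) :
    HV A Ψ z W = -(W z).im * th W := by
  unfold HV
  rw [DV_of_gen h hΨ hn hW]
  have := (mm_pos hA hW z).ne'
  field_simp

/-- **the `fderiv` generator** -/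
theorem LL_of_gen (hA : A.IsSymm) (h : HasGen A z Ψ th de ll) (hΨ : ContDiffOn ℝ 2 Ψ (Om ι))
    {W : ι → ℂ} (hW : W ∈ Om ι) : LL A Ψ z W = ll W := by
  have h1 := hasDerivAt_rez_fderiv
    (P365H878.diffAt (P365H878.contDiffOn_HV hA hΨ z) one_ne_zero hW) z
  have e1 : (fun u : ℝ => HV A Ψ z (rez W z u)) =
      fun u => -(W z).im * th (rez W z u) := by
    funext u
    rw [HV_of_gen hA h hΨ two_ne_zero (rez_mem hW z u), rez_at_im]
  rw [e1] at h1
  have h2 := h1.unique ((h.ht W hW).const_mul (-(W z).im))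
  have h3 : DV (HV A Ψ z) z W =
      -(W z).im * (de W + (-(W z).im)⁻¹ • ll W) := h2
  unfold LL
  rw [h3, DE_of_gen h hΨ two_ne_zero hW, smul_eq_mul]
  have : (W z).im ≠ 0 := (hW z).ne
  field_simp
  ring

section Ups

variable {E : Type*} [NormedAddCommGroup E] [InnerProductSpace ℝ E] (Φ : ι → E)

theorem LL_ups (hA : A.IsSymm) {ε : ℝ} (hε : 0 < ε) (J k : ℕ) (z x : ι) {W : ι → ℂ}
    (hW : W ∈ Om ι) :
    LL A (fun W => rho k * pr (TT A W) x * Gf ε (ur Φ (TT A W) J k x)) z W =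
      LLU Φ A W ε J k z x :=
  LL_of_gen hA (gen_ups Φ hA hε J k z x) (P365L.T2.Path.contDiffOn_ups_term hA J k x hε) hW

theorem LL_Ups (hA : A.IsSymm) {ε : ℝ} (hε : 0 < ε) (J : ℕ) (z : ι) {W : ι → ℂ}
    (hW : W ∈ Om ι) :
    LL A (fun W => ∑ x, ∑ k ∈ Finset.range (J + 2),
        rho k * pr (TT A W) x * Gf ε (ur Φ (TT A W) J k x)) z W =
      ∑ x, ∑ k ∈ Finset.range (J + 2), LLU Φ A W ε J k z x :=
  LL_of_gen hA (gen_Ups Φ hA hε J z)
    (ContDiffOn.sum fun x _ => ContDiffOn.sum fun k _ =>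
      P365L.T2.Path.contDiffOn_ups_term hA J k x hε) hW

/-- for the entropy `Ups` of helper844 (with its sign) -/
theorem gen_negUps (hA : A.IsSymm) {ε : ℝ} (hε : 0 < ε) (J : ℕ) (z : ι) :
    HasGen A z
      (fun W => -∑ x, ∑ k ∈ Finset.range (J + 2),
        rho k * pr (TT A W) x * Gf ε (ur Φ (TT A W) J k x))
      (fun W => -∑ x, ∑ k ∈ Finset.range (J + 2), tU Φ A W ε J k z x)
      (fun W => -∑ x, ∑ k ∈ Finset.range (J + 2), dU Φ A W ε J k z x)
      (fun W => -∑ x, ∑ k ∈ Finset.range (J + 2), LLU Φ A W ε J k z x) :=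
  (gen_Ups Φ hA hε J z).neg

theorem LL_negUps (hA : A.IsSymm) {ε : ℝ} (hε : 0 < ε) (J : ℕ) (z : ι) {W : ι → ℂ}
    (hW : W ∈ Om ι) :
    LL A (fun W => -∑ x, ∑ k ∈ Finset.range (J + 2),
        rho k * pr (TT A W) x * Gf ε (ur Φ (TT A W) J k x)) z W =
      -∑ x, ∑ k ∈ Finset.range (J + 2), LLU Φ A W ε J k z x :=
  LL_of_gen hA (gen_negUps Φ hA hε J z) (P365L.T2.Path.contDiffOn_Ups hA J hε) hW

end Ups

end Vale.Agent.P365.T2.H417
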